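import Vale.Agent.P011.D4I.Defs
import Vale.Agent.P011.D4I.H64.Odd

/-!
Block D4I: the quaternion algebras are ramified only at primes of odd local degree.
-/

open NumberField IsDedekindDomain

namespace Vale.Agent.P011.D4I

open Vale.Agent.P011.Arith Vale.Agent.P011.MPQ Vale.Agent.P011.D4 Vale.Agent.P011.D4T

namespace H319

variable {k L : Type} [Field k] [NumberField k] [Field L] [NumberField L] [Algebra k L]
  {w : HeightOneSpectrum (𝓞 L)} {v : HeightOneSpectrum (𝓞 k)}

/-- Local squares are local squares at the primes above. -/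
theorem LS_up (hw : w.asIdeal.comap (algebraMap (𝓞 k) (𝓞 L)) = v.asIdeal) {x : kˣ}
    (hx : x ∈ LS (v.valuation k)) : up L x ∈ LS (w.valuation L) := by
  obtain ⟨y, hy⟩ := hx
  refine ⟨up L y, ?_⟩
  have e1 : ((up L x : Lˣ) : L) / ((up L y : Lˣ) : L) ^ 2 - 1 =
      algebraMap k L ((x : k) / (y : k) ^ 2 - 1) := by
    rw [map_sub, map_div₀, map_pow, map_one]
    rfl
  have e4 : (4 : L) = algebraMap k L 4 := (map_ofNat _ 4).symm
  rw [e1, e4, val_lt_val_iff hw]
  exact hy

/-- Local norms are local norms at the primes above. -/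
theorem NFLS_up (hw : w.asIdeal.comap (algebraMap (𝓞 k) (𝓞 L)) = v.asIdeal) {a t : kˣ}
    (h : t ∈ NF a ⊔ LS (v.valuation k)) : up L t ∈ NF (up L a) ⊔ LS (w.valuation L) := by
  obtain ⟨n, ⟨x, y, hn⟩, l, hl, rfl⟩ := Subgroup.mem_sup.mp h
  have e : up L (n * l) = up L n * up L l := map_mul _ _ _
  rw [e]
  refine Subgroup.mul_mem_sup ⟨algebraMap k L x, algebraMap k L y, ?_⟩ (LS_up hw hl)
  change algebraMap k L (n : k) = _
  rw [hn, map_sub, map_mul, map_pow, map_pow]
  rfl

/-- A group is not the union of two proper subgroups. -/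
theorem exists_notMem {G : Type} [CommGroup G] {A B : Subgroup G} (hA : A ≠ ⊤) (hB : B ≠ ⊤) :
    ∃ z, z ∉ A ∧ z ∉ B := by
  obtain ⟨x, hx⟩ : ∃ x, x ∉ A := by
    by_contra h
    push Not at h
    exact hA ((Subgroup.eq_top_iff' A).mpr h)
  obtain ⟨y, hy⟩ : ∃ y, y ∉ B := by
    by_contra h
    push Not at h
    exact hB ((Subgroup.eq_top_iff' B).mpr h)
  by_cases h1 : x ∈ B
  · by_cases h2 : y ∈ A
    · refine ⟨x * y, fun h => hx ?_, fun h => hy ?_⟩
      · rwa [A.mul_mem_cancel_right h2] at h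
      · rwa [B.mul_mem_cancel_left h1] at h
    · exact ⟨y, h2, hy⟩
  · exact ⟨x, hx, h1⟩

/-- A quaternion algebra of the small field is split at the primes of even local degree. -/
theorem ram_odd (hw : w.asIdeal.comap (algebraMap (𝓞 k) (𝓞 L)) = v.asIdeal) {a b : kˣ}
    (h : Ram (up L a) (up L b) w) : OddP w v := by
  intro x hx
  by_contra hxv
  apply h
  by_cases hab : b ∈ NF a ⊔ LS (v.valuation k)
  · exact NFLS_up hw hab
  have ha : a ∉ LS (v.valuation k) := fun ha => hab (by
    rw [NF_sup_of_mem' a ha]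
    exact Subgroup.mem_top _)
  have hi := local_index_two v a ha
  have hix := local_index_two v x hxv
  obtain ⟨z, hz1, hz2⟩ := exists_notMem (A := NF a ⊔ LS (v.valuation k))
    (B := NF x ⊔ LS (v.valuation k)) (fun h => by
      rw [h, Subgroup.index_top] at hi
      norm_num at hi) (fun h => by
      rw [h, Subgroup.index_top] at hix
      norm_num at hix)
  have hzv : z ∉ LS (v.valuation k) := fun h => hz1 (Subgroup.mem_sup_right h)
  have hiz := local_index_two v z hzv
  have h1 : z * b ∈ NF a ⊔ LS (v.valuation k) := by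
    rw [Subgroup.mul_mem_iff_of_index_two hi]
    exact ⟨fun h => absurd h hz1, fun h => absurd h hab⟩
  have h2 : x * a ∈ NF z ⊔ LS (v.valuation k) := by
    rw [Subgroup.mul_mem_iff_of_index_two hiz]
    exact ⟨fun h => absurd (mem_symm z x h) hz2, fun h => absurd (mem_symm z a h) hz1⟩
  have h3 := NFLS_up hw h1
  have h4 := NFLS_up hw h2
  have e1 : up L (z * b) = up L z * up L b := map_mul _ _ _
  have e2 : up L (x * a) = up L x * up L a := map_mul _ _ _
  rw [e1] at h3
  rw [e2] at h4
  have h5 : up L a ∈ NF (up L z) ⊔ LS (w.valuation L) :=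
    ((NF (up L z) ⊔ LS (w.valuation L)).mul_mem_cancel_left (Subgroup.mem_sup_right hx)).mp h4
  have h6 := mem_symm (up L z) (up L a) h5
  exact ((NF (up L a) ⊔ LS (w.valuation L)).mul_mem_cancel_left h6).mp h3

/-- The same for the algebra `(a, q b)`. -/
theorem ram_odd' {a b : kˣ} {q : Lˣ} (hO : HOdd a q)
    (hw : w.asIdeal.comap (algebraMap (𝓞 k) (𝓞 L)) = v.asIdeal)
    (h : Ram (up L a) (q * up L b) w) : OddP w v := by
  by_cases h1 : Ram (up L a) q w
  · exact hO v w hw h1
  by_cases h2 : Ram (up L a) (up L b) w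
  · exact ram_odd hw h2
  · exact absurd (mul_mem (not_not.mp h1) (not_not.mp h2)) h

end H319

end Vale.Agent.P011.D4I
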