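import Vale.Agent.P011.D4T.H67.KCa
import Vale.Agent.P011.D4I.H319.KCf

/-!
Block D4I: the quaternion `X` of the change of the quadratic field, with an additional
automorphism `η` such that `η ρ = ρ² η`.
-/

namespace Vale.Agent.P011.D4I.H319

open Vale.Agent.P011.MPQ Vale.Agent.P011.D4 Vale.Agent.P011.D4.Oct Vale.Agent.P011.E6
  Vale.Agent.P011.D4T Vale.Agent.P011.D4T.H67

section kca

variable {k O : Type} [Field k] [Field O] [Algebra k O] {ρ σ τ η : O ≃ₐ[k] O} {a b : kˣ}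

/-- The quaternion `X` of the change of field. -/
theorem kcaI (h3 : ∀ x, ρ (ρ (ρ x)) = x) (hσ : ∀ x, σ (σ x) = x) (hτ : ∀ x, τ (τ x) = x)
    (hσρ : ∀ x, σ (ρ x) = ρ (σ x)) (hτρ : ∀ x, τ (ρ x) = ρ (τ x)) (hστ : ∀ x, σ (τ x) = τ (σ x))
    (h2 : (2 : O) ≠ 0) {α : O} (hα0 : α ≠ 0) (hσα : σ α = -α) (hρα : ρ α = α) (hτα : τ α = α)
    (hα2 : α * α = algebraMap k O a)
    {β : O} (hβ0 : β ≠ 0) (hσβ : σ β = β) (hτβ : τ β = -β)
    {q : O} (hq : N3 ρ q = 1) (hσq : σ q = q) (hτq : τ q = q)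
    {i1 j1 : Qt a b} (hi0 : i1.re = 0) (hi : (algebraMap k O (nrd i1)) = -(β * β))
    (hj : nrd j1 ≠ 0) (hij : j1 * i1 = -(i1 * j1))
    {p : Qt (up O a) (up O b)} (hp0 : p.re = 0) (hp : nrd p = -(β * β)) (hτp : qmap τ p = p)
    (hσp : mq a b α q * qmap σ p = p * mq a b α q)
    (hηρ : ∀ x, η (ρ x) = ρ (ρ (η x))) (hησ : ∀ x, η (σ x) = σ (η x))
    (hητ : ∀ x, η (τ x) = τ (η x)) (hηα : η α = α) (hηβ : η β = β) (hηq : η q = q)
    (hηp : qmap η p = p) :
    ∃ (X : Qt (up O a) (up O b)) (lam v s : O), nrd X ≠ 0 ∧ v ≠ 0 ∧ s ≠ 0 ∧ lam ≠ 0 ∧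
      p * X = X * qup O i1 ∧ mq a b α q * qmap σ X = lam • X ∧
      qmap τ X = X * el (qup O i1) β (τ v) v⁻¹ ∧
      N3 ρ (v * τ v) = 1 ∧ σ (v * τ v) = v * τ v ∧
      ρ s = s ∧ σ s = N3 ρ lam * s ∧ τ s * N3 ρ v = s ∧ lam * σ lam = q ∧
      qmap η X = X ∧ η lam = lam ∧ η v = v ∧ η s = s := by
  obtain ⟨I, hI⟩ : ∃ I : Qt (up O a) (up O b), I = qup O i1 := ⟨_, rfl⟩
  rw [← hI]
  have hI0 : I.re = 0 := by
    rw [hI]
    change algebraMap k O i1.re = 0
    rw [hi0, map_zero]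
  have hnI : nrd I = -(β * β) := by
    rw [hI, ← hi]
    exact nrd_qup i1
  have hσI : qmap σ I = I := by rw [hI, qmap_qup]
  have hτI : qmap τ I = I := by rw [hI, qmap_qup]
  have hηI : qmap η I = I := by rw [hI, qmap_qup]
  have hsI : star I = -I := star_of_re hI0
  have hsp : star p = -p := star_of_re hp0
  have hII : I * I = (β * β) • (1 : Qt (up O a) (up O b)) := by
    have h := mul_star_self' I
    rw [hsI, mul_neg, hnI, neg_smul, neg_inj] at h
    exact h
  have hpp : p * p = (β * β) • (1 : Qt (up O a) (up O b)) := by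
    have h := mul_star_self' p
    rw [hsp, mul_neg, hp, neg_smul, neg_inj] at h
    exact h
  have hββ : β * β ≠ 0 := mul_ne_zero hβ0 hβ0
  obtain ⟨m, hm⟩ : ∃ m : Qt (up O a) (up O b), m = mq a b α q := ⟨_, rfl⟩
  rw [← hm] at hσp ⊢
  have hq0 : q ≠ 0 := by
    rintro rfl
    simp [N3] at hq
  have hτm : qmap τ m = m := by
    rw [hm]
    ext
    · change τ ((q + 1) / 2) = (q + 1) / 2
      rw [map_div₀, map_add, hτq, map_one, map_ofNat]
    · change τ ((q - 1) / (2 * α)) = (q - 1) / (2 * α)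
      rw [map_div₀, map_sub, hτq, map_one, map_mul, map_ofNat, hτα]
    · exact map_zero τ
    · exact map_zero τ
  have hηm : qmap η m = m := by
    rw [hm]
    ext
    · change η ((q + 1) / 2) = (q + 1) / 2
      rw [map_div₀, map_add, hηq, map_one, map_ofNat]
    · change η ((q - 1) / (2 * α)) = (q - 1) / (2 * α)
      rw [map_div₀, map_sub, hηq, map_one, map_mul, map_ofNat, hηα]
    · exact map_zero η
    · exact map_zero η
  have hmm : m * qmap σ m = q • (1 : Qt (up O a) (up O b)) := by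
    have e1 : (up O a : O) = α * α := by rw [hα2]; rfl
    rw [hm]
    ext
    · simp only [mq, qmap, QuaternionAlgebra.re_mul, QuaternionAlgebra.re_smul,
        QuaternionAlgebra.re_one, smul_eq_mul, map_div₀, map_add, map_sub, map_mul, map_one,
        map_zero, map_ofNat, hσq, hσα, e1]
      field_simp
      ring
    · simp only [mq, qmap, QuaternionAlgebra.imI_mul, QuaternionAlgebra.imI_smul,
        QuaternionAlgebra.imI_one, smul_eq_mul, map_div₀, map_add, map_sub, map_mul, map_one,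
        map_zero, map_ofNat, hσq, hσα, e1]
      field_simp
      ring
    · simp only [mq, qmap, QuaternionAlgebra.imJ_mul, QuaternionAlgebra.imJ_smul,
        QuaternionAlgebra.imJ_one, smul_eq_mul, map_zero]
      ring
    · simp only [mq, qmap, QuaternionAlgebra.imK_mul, QuaternionAlgebra.imK_smul,
        QuaternionAlgebra.imK_one, smul_eq_mul, map_zero]
      ring
  -- the quaternion `X₀`
  obtain ⟨Y, hY, hX0⟩ : ∃ Y : Qt (up O a) (up O b),
      (qmap σ Y = Y ∧ qmap τ Y = Y ∧ qmap η Y = Y) ∧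
      nrd (p * Y + Y * I) ≠ 0 := by
    have hpar : nrd (p + I) + nrd (p - I) = 2 * nrd p + 2 * nrd I := by
      simp only [nrd, QuaternionAlgebra.re_add, QuaternionAlgebra.imI_add,
        QuaternionAlgebra.imJ_add, QuaternionAlgebra.imK_add, QuaternionAlgebra.re_sub,
        QuaternionAlgebra.imI_sub, QuaternionAlgebra.imJ_sub, QuaternionAlgebra.imK_sub]
      ring
    by_cases h : nrd (p + I) = 0
    · refine ⟨qup O j1, ⟨by rw [qmap_qup], by rw [qmap_qup], by rw [qmap_qup]⟩, ?_⟩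
      have e1 : (qup O j1 : Qt (up O a) (up O b)) * I = -(I * qup O j1) := by
        rw [hI, ← qup_mul, hij, ← qup_mul]
        exact qup_neg _
      rw [e1, ← sub_eq_add_neg, ← sub_mul, nrd_mul]
      apply mul_ne_zero
      · rw [h, hp, hnI, zero_add] at hpar
        rw [hpar]
        intro h5
        apply mul_ne_zero (mul_ne_zero h2 h2) hββ
        linear_combination -h5
      · rw [nrd_qup]
        exact (map_ne_zero _).mpr hj
    · refine ⟨1, ⟨by rw [qmap_one], by rw [qmap_one], by rw [qmap_one]⟩, ?_⟩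
      rwa [mul_one, one_mul]
  obtain ⟨hY1, hY2, hY3⟩ := hY
  obtain ⟨X0, hX0d⟩ : ∃ X0, X0 = p * Y + Y * I := ⟨_, rfl⟩
  rw [← hX0d] at hX0
  have hpX0 : p * X0 = X0 * I := by
    rw [hX0d, mul_add, add_mul, ← mul_assoc, hpp, mul_assoc Y, hII, smul_mul_assoc, one_mul,
      mul_smul_comm, mul_one, mul_assoc, add_comm]
  have hτX0 : qmap τ X0 = X0 := by
    rw [hX0d, qmap_add, qmap_mul, qmap_mul, hτp, hτI, hY2]
  have hηX0 : qmap η X0 = X0 := by
    rw [hX0d, qmap_add, qmap_mul, qmap_mul, hηp, hηI, hY3]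
  obtain ⟨Z, hZ⟩ : ∃ Z, Z = m * qmap σ X0 := ⟨_, rfl⟩
  have hZ' : Z = p * m * Y + m * Y * I := by
    rw [hZ, hX0d, qmap_add, qmap_mul, qmap_mul, hσI, hY1, mul_add, ← mul_assoc, hσp, ← mul_assoc]
  have hpZ : p * Z = Z * I := by
    have e1 : p * (p * m * Y) = (β * β) • (m * Y) := by
      rw [← mul_assoc, ← mul_assoc, hpp, smul_mul_assoc, smul_mul_assoc, one_mul]
    have e2 : m * Y * I * I = (β * β) • (m * Y) := by
      rw [mul_assoc, hII, mul_smul_comm, mul_one]
    have e3 : p * (m * Y * I) = p * m * Y * I := by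
      rw [← mul_assoc, ← mul_assoc]
    rw [hZ', mul_add, add_mul, e1, e2, e3, add_comm]
  obtain ⟨l, hl⟩ : ∃ l, l = (nrd X0)⁻¹ • (star X0 * Z) := ⟨_, rfl⟩
  have hXl : X0 * l = Z := by
    rw [hl, mul_smul_comm, ← mul_assoc, mul_star_self', smul_mul_assoc, one_mul, smul_smul,
      inv_mul_cancel₀ hX0, one_smul]
  have hlI : l * I = I * l := by
    apply cancel_left hX0
    rw [← mul_assoc, hXl, ← mul_assoc, ← hpX0, mul_assoc, hXl, hpZ]
  have hτl : qmap τ l = l := by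
    apply cancel_left hX0
    have e1 : qmap τ (X0 * l) = qmap τ Z := by rw [hXl]
    rw [qmap_mul, hτX0] at e1
    rw [e1, hXl, hZ, qmap_mul, hτm]
    have e2 : qmap τ (qmap σ X0) = qmap σ (qmap τ X0) := by
      ext
      · exact (hστ _).symm
      · exact (hστ _).symm
      · exact (hστ _).symm
      · exact (hστ _).symm
    rw [e2, hτX0]
  have hηl : qmap η l = l := by
    apply cancel_left hX0
    have e1 : qmap η (X0 * l) = qmap η Z := by rw [hXl]
    rw [qmap_mul, hηX0] at e1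
    rw [e1, hXl, hZ, qmap_mul, hηm]
    have e2 : qmap η (qmap σ X0) = qmap σ (qmap η X0) := by
      ext
      · exact hησ _
      · exact hησ _
      · exact hησ _
      · exact hησ _
    rw [e2, hηX0]
  have hll : l * qmap σ l = q • (1 : Qt (up O a) (up O b)) := by
    apply cancel_left hX0
    have e1 : m * qmap σ Z = q • X0 := by
      have e2 : qmap σ (qmap σ X0) = X0 := by
        ext
        · exact hσ _
        · exact hσ _
        · exact hσ _
        · exact hσ _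
      rw [hZ, qmap_mul, e2, ← mul_assoc, hmm, smul_mul_assoc, one_mul]
    have e3 : m * qmap σ Z = X0 * (l * qmap σ l) := by
      rw [← hXl, qmap_mul, ← mul_assoc, ← hZ, ← hXl, mul_assoc]
    rw [← e3, e1, mul_smul_comm, mul_one]
  obtain ⟨l0, hl0⟩ : ∃ l0, l0 = l.re := ⟨_, rfl⟩
  obtain ⟨l1, hl1⟩ : ∃ l1, l1 = (l * I).re / (β * β) := ⟨_, rfl⟩
  have hτl0 : τ l0 = l0 := by
    rw [hl0]
    exact congrArg QuaternionAlgebra.re hτl
  have hτl1 : τ l1 = l1 := by
    have e1 : qmap τ (l * I) = l * I := by rw [qmap_mul, hτl, hτI]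
    have e2 : τ (l * I).re = (l * I).re := congrArg QuaternionAlgebra.re e1
    rw [hl1, map_div₀, e2, map_mul, hτβ, neg_mul_neg]
  have hηl0 : η l0 = l0 := by
    rw [hl0]
    exact congrArg QuaternionAlgebra.re hηl
  have hηl1 : η l1 = l1 := by
    have e1 : qmap η (l * I) = l * I := by rw [qmap_mul, hηl, hηI]
    have e2 : η (l * I).re = (l * I).re := congrArg QuaternionAlgebra.re e1
    rw [hl1, map_div₀, e2, map_mul, hηβ]
  have hle := comm_el h2 hβ0 hI0 hnI hlI
  rw [← hl0, ← hl1] at hle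
  obtain ⟨lam, hlam⟩ : ∃ lam, lam = l0 + β * l1 := ⟨_, rfl⟩
  have hτlam : τ lam = l0 - β * l1 := by
    rw [hlam, map_add, map_mul, hτl0, hτl1, hτβ, neg_mul, sub_eq_add_neg]
  have hηlam : η lam = lam := by
    rw [hlam, map_add, map_mul, hηl0, hηl1, hηβ]
  rw [← hlam, ← hτlam] at hle
  have hlamq : lam * σ lam = q := by
    rw [hle, qmap_el hσI hσβ, el_mul h2 hβ0 hII] at hll
    have e1 : q • (1 : Qt (up O a) (up O b)) = el I β q q := by
      rw [← el_one h2 (I := I) (α := β), el_smul, mul_one]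
    rw [e1] at hll
    exact el_left h2 hβ0 hI0 hII hll
  have hlam0 : lam ≠ 0 := by
    rintro rfl
    rw [zero_mul] at hlamq
    exact hq0 hlamq.symm
  obtain ⟨v, s, hv0, hs0, h5, h6, h7, h8, h9, h10, h11, h12⟩ :=
    exists_vsI h3 hσ hτ hσρ hτρ hστ h2 hα0 hσα hρα hq hτq hlamq hηρ hησ hητ hηα hηlam
  refine ⟨X0 * el I β 1 v, lam, v, s, ?_, hv0, hs0, hlam0, ?_, ?_, ?_, h6, h7, h8, h9, h10, hlamq,
    ?_, hηlam, h11, h12⟩
  · rw [nrd_mul, nrd_el h2 hβ0 hI0 hnI, one_mul]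
    exact mul_ne_zero hX0 hv0
  · rw [← mul_assoc, hpX0, mul_assoc, mul_assoc]
    congr 1
    have e1 : I = el I β β (-β) := (el_I h2 hβ0).symm
    have e2 : el I β β (-β) * el I β 1 v = el I β 1 v * el I β β (-β) := by
      rw [el_mul h2 hβ0 hII, el_mul h2 hβ0 hII, mul_comm β, mul_comm (-β)]
    rwa [← e1] at e2
  · rw [qmap_mul, qmap_el hσI hσβ, ← mul_assoc, ← hZ, ← hXl, hle, mul_assoc,
      el_mul h2 hβ0 hII, map_one, mul_one, h5, ← mul_smul_comm, el_smul, mul_one]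
  · rw [qmap_mul, hτX0, qmap_el' hτI hτβ, map_one, mul_assoc, el_mul h2 hβ0 hII, one_mul,
      mul_inv_cancel₀ hv0]
  · rw [qmap_mul, hηX0, qmap_el hηI hηβ, map_one, h11]

end kca

end Vale.Agent.P011.D4I.H319
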