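import Vale.Agent.P011.D4T.H67.KCb
import Vale.Agent.P011.D4I.H319.KCa

/-!
Block D4I: the change of the quadratic field, with the additional involution.
-/

open Vale.Agent.P011.MPQ Vale.Agent.P011.D4 Vale.Agent.P011.D4.Oct Vale.Agent.P011.E6
  Vale.Agent.P011.D4.H24

namespace Vale.Agent.P011.D4I.H319

open Vale.Agent.P011.D4T Vale.Agent.P011.D4T.H67

section uf

variable {k O : Type} [Field k] [Field O] [Algebra k O] {ρ σ τ ι : O ≃ₐ[k] O}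
  {a b c a1 b1 c1 : kˣ} {I J X : Qt (up O a) (up O b)} {t : O}

theorem uF_iota [NeZero (2 : O)] (h3 : ∀ x, ρ (ρ (ρ x)) = x)
    (hιρ : ∀ x, ι (ρ x) = ρ (ρ (ι x))) (hιX : qmap ι X = qmap ρ (qmap ρ X)) (hιt : ι t = t)
    (h : HP (up O a1) (up O b1) I J) (hI : qmap ι I = I) (hJ : qmap ι J = J)
    (x : OctL O a1 b1 c1) :
    omap ι (star (uF ρ c I J X t x)) = uF ρ c I J X t (omap ι (star x)) := by
  have e1 : qmap ι (qmap ρ X) = qmap ρ X := by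
    have e : qmap ι (qmap ρ X) = qmap ρ (qmap ρ (qmap ι X)) := by
      ext
      · exact hιρ _
      · exact hιρ _
      · exact hιρ _
      · exact hιρ _
    rw [e, hιX]
    ext
    · exact h3 _
    · exact h3 _
    · exact h3 _
    · exact h3 _
  have e2 : qmap ι (qmap ρ (qmap ρ X)) = X := by
    have e : qmap ι (qmap ρ (qmap ρ X)) = qmap ρ (qmap ρ (qmap ι (qmap ρ X))) := by
      ext
      · exact hιρ _
      · exact hιρ _
      · exact hιρ _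
      · exact hιρ _
    rw [e, e1]
    ext
    · exact h3 _
    · exact h3 _
    · exact h3 _
    · exact h3 _
  ext1
  · rw [fst_omap, fst_star, fst_uF, fst_uF, fst_omap, fst_star, star_mul, star_mul, star_star,
      qmap_mul, qmap_mul, e2, qmap_star, qmap_star, hιX, qmap_pq ι hI hJ, qmap_star, h.pq_star,
      mul_assoc]
  · rw [snd_omap, snd_star, snd_uF, snd_uF, snd_omap, snd_star, qmap_neg, qmap_smul, qmap_mul,
      hιt, qmap_star, e1, qmap_pq ι hI hJ, qmap_neg, pq_neg, neg_mul, smul_neg]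

/-- **The change of the quadratic field.** -/
theorem kcbI [NeZero (2 : O)] (h3 : ∀ x, ρ (ρ (ρ x)) = x) (hσ : ∀ x, σ (σ x) = x)
    (hτ : ∀ x, τ (τ x) = x) (hσρ : ∀ x, σ (ρ x) = ρ (σ x)) (hτρ : ∀ x, τ (ρ x) = ρ (τ x))
    (hστ : ∀ x, σ (τ x) = τ (σ x))
    (hιρ : ∀ x, ι (ρ x) = ρ (ρ (ι x))) (hισ : ∀ x, ι (σ x) = σ (ι x))
    (hιτ : ∀ x, ι (τ x) = τ (ι x))
    (hfix : ∀ x, ρ x = x → σ x = x → τ x = x → ι x = x → ∃ t : k, algebraMap k O t = x)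
    {α : O} (hσα : σ α = -α) (hρα : ρ α = α) (hτα : τ α = α) (hα2 : α * α = algebraMap k O a)
    {β : O} (hσβ : σ β = β) (hτβ : τ β = -β) (hρβ : ρ β = β) (hβ2 : β * β = algebraMap k O a1)
    (hια : ι α = α) (hιβ : ι β = β)
    {q : O} (hq : N3 ρ q = 1) (hσq : σ q = q) (hτq : τ q = q)
    {i1 j1 : Qt a b} (hi0 : i1.re = 0) (hj0 : j1.re = 0) (hi : nrd i1 = -a1) (hj : nrd j1 = -b1)
    (hij : j1 * i1 = -(i1 * j1))
    {p : Qt (up O a) (up O b)} (hp0 : p.re = 0) (hp : nrd p = -(β * β)) (hτp : qmap τ p = p)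
    (hσp : mq a b α q * qmap σ p = p * mq a b α q)
    (hιq : ι q = ρ (ρ q)) (hιp : qmap ι p = qmap ρ (qmap ρ p)) (c : kˣ) :
    ∃ (c1 : kˣ) (q1 : O) (u : OctL O a1 b1 c1 ≃ₗ[O] OctL O a b c) (e f s t : O),
      e ≠ 0 ∧ f ≠ 0 ∧ s ≠ 0 ∧ t ≠ 0 ∧ N3 ρ q1 = 1 ∧ σ q1 = q1 ∧ τ q1 = q1 ∧
      ι q1 = ρ (ρ q1) ∧ (∀ x, omap ι (star (u x)) = u (omap ι (star x))) ∧
      (∀ x y, tri ρ (u x) (u y) = e • u (tri ρ x y)) ∧
      (∀ x y, bil (u x) (u y) = f * bil x y) ∧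
      (∀ x, Jq σ α q (ρ q) (u x) = s • u (omap σ x)) ∧
      (∀ x, omap τ (u x) = t • u (Jq τ β q1 (ρ q1) x)) ∧
      (∀ x, u (t0 O a1 b1 c1 x) = t0 O a b c (u x)) ∧
      (∀ (r r' r0 r0' g : O) x,
        u (zFun ρ (r • 1 + r' • ⟨0, 1, 0, 0⟩) (r0 • 1 + r0' • ⟨0, 1, 0, 0⟩) g x) =
          zFun ρ (r • 1 + r' • p) (r0 • 1 + r0' • qup O i1) g (u x)) := by
  have h2 : (2 : O) ≠ 0 := NeZero.ne 2
  have hα0 : α ≠ 0 := by
    intro h0
    rw [h0, mul_zero] at hα2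
    exact (map_ne_zero (algebraMap k O)).2 a.ne_zero hα2.symm
  have hβ0 : β ≠ 0 := by
    intro h0
    rw [h0, mul_zero] at hβ2
    exact (map_ne_zero (algebraMap k O)).2 a1.ne_zero hβ2.symm
  have hi' : algebraMap k O (nrd i1) = -(β * β) := by
    rw [hi, map_neg, hβ2]
  have hj' : nrd j1 ≠ 0 := by
    rw [hj]
    exact neg_ne_zero.2 b1.ne_zero
  obtain ⟨X, lam, v, s, hX0, hv, hs, hlam, hpX, hσX, hτX, hNv, hσv, hρs, hσs, hτs, hlq, hηX, -,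
      hηv, hηs⟩ :=
    kcaI (η := ρ * ι) h3 hσ hτ hσρ hτρ hστ h2 hα0 hσα hρα hτα hα2 hβ0 hσβ hτβ hq hσq hτq hi0 hi'
      hj' hij hp0 hp hτp hσp
      (fun x => by
        change ρ (ι (ρ x)) = ρ (ρ (ρ (ι x)))
        rw [hιρ])
      (fun x => by
        change ρ (ι (σ x)) = σ (ρ (ι x))
        rw [hισ, hσρ])
      (fun x => by
        change ρ (ι (τ x)) = τ (ρ (ι x))
        rw [hιτ, hτρ])
      (by
        change ρ (ι α) = α
        rw [hια, hρα])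
      (by
        change ρ (ι β) = β
        rw [hιβ, hρβ])
      (by
        change ρ (ι q) = q
        rw [hιq, h3])
      (by
        have e : qmap (ρ * ι) p = qmap ρ (qmap ι p) := rfl
        rw [e, hιp]
        ext
        · exact h3 _
        · exact h3 _
        · exact h3 _
        · exact h3 _)
  have hιv : ι v = ρ (ρ v) := by
    have e : ρ (ι v) = v := hηv
    rw [← h3 (ι v), e]
  have hιs : ι s = s := by
    have e : ρ (ι s) = s := hηs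
    rw [← h3 (ι s), e, hρs, hρs]
  have hιX : qmap ι X = qmap ρ (qmap ρ X) := by
    have e : qmap ρ (qmap ι X) = X := hηX
    have e3 : ∀ Y : Qt (up O a) (up O b), qmap ρ (qmap ρ (qmap ρ Y)) = Y := by
      intro Y
      ext
      · exact h3 _
      · exact h3 _
      · exact h3 _
      · exact h3 _
    rw [← e3 (qmap ι X), e]
  have hII : i1 * i1 = (a1 : k) • (1 : Qt a b) := by
    have h := mul_star_self' i1
    rw [star_of_re hi0, mul_neg, hi, neg_smul, neg_inj] at h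
    exact h
  have hJJ : j1 * j1 = (b1 : k) • (1 : Qt a b) := by
    have h := mul_star_self' j1
    rw [star_of_re hj0, mul_neg, hj, neg_smul, neg_inj] at h
    exact h
  have hP : HP (up O a1) (up O b1) (qup O i1) (qup O j1) := by
    refine ⟨?_, ?_, ?_, ?_, ?_⟩
    · change algebraMap k O i1.re = 0
      rw [hi0, map_zero]
    · change algebraMap k O j1.re = 0
      rw [hj0, map_zero]
    · rw [← qup_mul, hII, qup_smul, qup_one]
      rfl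
    · rw [← qup_mul, hJJ, qup_smul, qup_one]
      rfl
    · rw [← qup_mul, hij, ← qup_mul]
      exact qup_neg _
  have hIm : ∀ g : O ≃ₐ[k] O, qmap g (qup O i1) = qup O i1 := fun g => by rw [qmap_qup]
  have hJm : ∀ g : O ≃ₐ[k] O, qmap g (qup O j1) = qup O j1 := fun g => by rw [qmap_qup]
  have hH : HJ a ρ σ α q (ρ q) (ρ (ρ q)) :=
    { al := hα2
      ra := hρα
      sa := hσα
      r0 := rfl
      r1 := rfl
      r2 := h3 q
      s0 := hσq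
      N := hq
      rs := fun x => (hσρ x).symm
      r3 := h3
      s2 := hσ }
  have hH1 : HJ a1 ρ τ β (v * τ v) (ρ (v * τ v)) (ρ (ρ (v * τ v))) :=
    { al := hβ2
      ra := hρβ
      sa := hτβ
      r0 := rfl
      r1 := rfl
      r2 := h3 _
      s0 := by rw [map_mul, hτ, mul_comm]
      N := hNv
      rs := fun x => (hτρ x).symm
      r3 := h3
      s2 := hτ }
  have hq0 : q ≠ 0 := hH.q_ne
  have hnI : nrd (qup O i1 : Qt (up O a) (up O b)) = -(β * β) := by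
    rw [← hi']
    exact nrd_qup i1
  -- the norm of `X`
  obtain ⟨ξ, hξ⟩ : ∃ ξ, ξ = nrd X := ⟨_, rfl⟩
  have hξ0 : ξ ≠ 0 := by rwa [hξ]
  have hσξ : q * σ ξ = lam ^ 2 * ξ := by
    have h := congrArg nrd hσX
    rwa [nrd_mul_q, nrd_mq hα2, nrd_qmap, nrd_smul_q, ← hξ] at h
  have hτξ : v * τ ξ = ξ * τ v := by
    have h := congrArg nrd hτX
    rw [nrd_mul_q, nrd_el h2 hβ0 hP.I0 hnI, nrd_qmap, ← hξ] at h
    rw [h]
    field_simp
  have hιξ : ι ξ = ρ (ρ ξ) := by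
    rw [hξ]
    have h := congrArg nrd hιX
    rwa [nrd_qmap, nrd_qmap, nrd_qmap] at h
  have hρξ0 : ρ ξ ≠ 0 := (map_ne_zero ρ).2 hξ0
  have hρρξ0 : ρ (ρ ξ) ≠ 0 := (map_ne_zero ρ).2 hρξ0
  have hρv0 : ρ v ≠ 0 := (map_ne_zero ρ).2 hv
  have hρρv0 : ρ (ρ v) ≠ 0 := (map_ne_zero ρ).2 hρv0
  have hτv0 : τ v ≠ 0 := (map_ne_zero τ).2 hv
  have hρl0 : ρ lam ≠ 0 := (map_ne_zero ρ).2 hlam
  have hρρl0 : ρ (ρ lam) ≠ 0 := (map_ne_zero ρ).2 hρl0
  have hρσξ : ρ (ρ q) * ρ (ρ (σ ξ)) = ρ (ρ lam) ^ 2 * ρ (ρ ξ) := by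
    rw [← map_mul, ← map_mul, hσξ, map_mul, map_mul, map_pow, map_pow]
  have hρτξ : ρ (ρ v) * ρ (ρ (τ ξ)) = ρ (ρ ξ) * ρ (ρ (τ v)) := by
    rw [← map_mul, ← map_mul, hτξ, map_mul, map_mul]
  obtain ⟨t, ht⟩ : ∃ t, t = ξ * ρ (ρ ξ) * s⁻¹ := ⟨_, rfl⟩
  have ht0 : t ≠ 0 := by
    rw [ht]
    exact mul_ne_zero (mul_ne_zero hξ0 hρρξ0) (inv_ne_zero hs)
  have hρt : ρ t = ρ ξ * ξ * s⁻¹ := by
    rw [ht, map_mul, map_mul, map_inv₀, h3, hρs]
  have hρρt : ρ (ρ t) = ρ (ρ ξ) * ρ ξ * s⁻¹ := by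
    rw [hρt, map_mul, map_mul, map_inv₀, hρs]
  -- the element `c₁`
  obtain ⟨ζ, hζ⟩ : ∃ ζ : k, algebraMap k O ζ = N3 ρ ξ * (s ^ 2)⁻¹ := by
    apply hfix
    · rw [map_mul, rho_N3 h3, map_inv₀, map_pow, hρs]
    · have e1 : N3 ρ (σ ξ) = N3 ρ lam ^ 2 * N3 ρ ξ := by
        have h := congrArg (N3 ρ) hσξ
        rwa [N3_mul, hq, one_mul, N3_mul, sq, N3_mul, ← sq] at h
      have hNl : N3 ρ lam ≠ 0 := N3_ne hlam
      rw [map_mul, map_N3 hσρ, e1, map_inv₀, map_pow, hσs]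
      field_simp
    · have e1 : N3 ρ v * N3 ρ (τ ξ) = N3 ρ ξ * N3 ρ (τ v) := by
        rw [← N3_mul, hτξ, N3_mul]
      have hNv0 : N3 ρ v ≠ 0 := N3_ne hv
      rw [N3_mul] at hNv
      have e2 : N3 ρ (τ ξ) * N3 ρ v ^ 2 = N3 ρ ξ := by
        linear_combination N3 ρ v * e1 + N3 ρ ξ * hNv
      have hτs0 : τ s ≠ 0 := (map_ne_zero τ).2 hs
      rw [map_mul, map_N3 hτρ, map_inv₀, map_pow, ← e2]
      nth_rewrite 2 [← hτs]
      field_simp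
    · rw [map_mul, map_N3' h3 hιρ, map_inv₀, map_pow, hιs, hιξ, N3, h3, N3]
      ring
  have hζ0 : ζ ≠ 0 := by
    rintro rfl
    rw [map_zero] at hζ
    exact mul_ne_zero (N3_ne hξ0) (inv_ne_zero (pow_ne_zero _ hs)) hζ.symm
  have hc1 : ((up O (Units.mk0 ζ hζ0 * c) : Oˣ) : O) =
      N3 ρ ξ * (s ^ 2)⁻¹ * ((up O c : Oˣ) : O) := by
    rw [← hζ]
    change algebraMap k O (ζ * c) = _
    rw [map_mul]
    rfl
  have hA : ((up O c : Oˣ) : O) * (ρ (ρ t) * ρ t) =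
      ((up O (Units.mk0 ζ hζ0 * c) : Oˣ) : O) * ρ (nrd X) := by
    rw [hc1, hρρt, hρt, ← hξ, N3]
    field_simp
  have hB : ρ (ρ t) * nrd X = ρ (nrd X) * t := by
    rw [hρρt, ← hξ, ht]
    ring
  have hC : ρ t * ρ (ρ (nrd X)) = ρ (nrd X) * t := by
    rw [hρt, ← hξ, ht]
    ring
  have hN : ((up O c : Oˣ) : O) * (t ^ 2 * ρ (nrd X)) =
      ((up O (Units.mk0 ζ hζ0 * c) : Oˣ) : O) * (nrd X * ρ (ρ (nrd X))) := by
    rw [hc1, ht, ← hξ, N3]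
    field_simp
  refine ⟨Units.mk0 ζ hζ0 * c, v * τ v, uE ρ c _ hP hX0 ht0, ρ (nrd X), nrd X * ρ (ρ (nrd X)),
    (ρ (ρ q))⁻¹ * (lam * ρ (ρ lam)), v⁻¹ * ρ (ρ v⁻¹) * ρ (ρ (v * τ v)), ?_, ?_, ?_, ?_, hNv, hσv,
    hH1.s0, ?_, ?_, ?_, ?_, ?_, ?_, ?_, ?_⟩
  · rw [← hξ]
    exact hρξ0
  · rw [← hξ]
    exact mul_ne_zero hξ0 hρρξ0
  · exact mul_ne_zero (inv_ne_zero hH.q2_ne) (mul_ne_zero hlam hρρl0)
  · exact mul_ne_zero (mul_ne_zero (inv_ne_zero hv)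
      ((map_ne_zero ρ).2 ((map_ne_zero ρ).2 (inv_ne_zero hv)))) hH1.q2_ne
  · rw [map_mul, hιτ, hιv, map_mul, map_mul, ← hτρ, ← hτρ]
  · intro x
    refine uF_iota h3 hιρ hιX ?_ hP (hIm ι) (hJm ι) x
    · rw [ht, map_mul, map_mul, map_inv₀, hιs, hιρ, hιρ, hιξ, h3]
      simp only [h3]
      ring
  · intro x y
    exact uF_tri h3 hP (hIm ρ) (hJm ρ) hA hB hC x y
  · intro x y
    exact bil_uF hP hN x y
  · intro x
    have hT : ρ (ρ q) * (σ t * q * ρ lam) = lam * ρ (ρ lam) * t := by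
      have hσt : σ t = σ ξ * ρ (ρ (σ ξ)) * (N3 ρ lam * s)⁻¹ := by
        rw [ht, map_mul, map_mul, map_inv₀, hσs, hσρ, hσρ]
      rw [hσt, ht, N3]
      have e : ρ (ρ q) * (σ ξ * ρ (ρ (σ ξ)) * (lam * ρ lam * ρ (ρ lam) * s)⁻¹ * q * ρ lam) =
          (q * σ ξ) * (ρ (ρ q) * ρ (ρ (σ ξ))) * (lam * ρ lam * ρ (ρ lam) * s)⁻¹ * ρ lam := by
        ring
      rw [e, hσξ, hρσξ]
      field_simp
    have h := uF_Jq (c := c) (c1 := Units.mk0 ζ hζ0 * c) hH (hIm σ) (hJm σ) hσX hT x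
    change Jq σ α q (ρ q) (uF ρ c (qup O i1) (qup O j1) X t x) =
      ((ρ (ρ q))⁻¹ * (lam * ρ (ρ lam))) • uF ρ c (qup O i1) (qup O j1) X t (omap σ x)
    rw [mul_smul, ← h, smul_smul, inv_mul_cancel₀ hH.q2_ne, one_smul]
  · intro x
    have hT : τ t * ρ v⁻¹ = v⁻¹ * ρ (ρ v⁻¹) * ρ (ρ (v * τ v)) * t * (v * τ v) := by
      have hτt : τ t = τ ξ * ρ (ρ (τ ξ)) * (τ s)⁻¹ := by
        rw [ht, map_mul, map_mul, map_inv₀, hτρ, hτρ]
      have hτs0 : τ s ≠ 0 := (map_ne_zero τ).2 hs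
      have e1 : τ ξ = ξ * τ v * v⁻¹ := by
        rw [← hτξ]
        field_simp
      have e2 : ρ (ρ (τ ξ)) = ρ (ρ ξ) * ρ (ρ (τ v)) * (ρ (ρ v))⁻¹ := by
        rw [← hρτξ]
        field_simp
      have e3 : s⁻¹ = (τ s)⁻¹ * (N3 ρ v)⁻¹ := by
        rw [← mul_inv, hτs]
      rw [hτt, e2, e1, ht, e3, N3, map_inv₀, map_inv₀, map_mul, map_mul]
      field_simp
    exact uF_omap hH1 hP (hIm ρ) (hJm ρ) (hIm τ) (hJm τ) hv hτX rfl hT x
  · intro x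
    exact uF_t0 x
  · intro r r' r0 r0' g x
    refine uF_zFun hP (hIm ρ) (hJm ρ) ?_ ?_ g x
    · rw [pq_add, pq_smul, pq_smul, pq_one, pq_gi, add_mul, mul_add, smul_mul_assoc,
        smul_mul_assoc, hpX, one_mul, mul_smul_comm, mul_smul_comm, mul_one]
    · rw [pq_add, pq_smul, pq_smul, pq_one, pq_gi]

end uf

end Vale.Agent.P011.D4I.H319
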